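import Vale.Agent.P292.AdjVar

namespace Vale.Agent.P292.H442

universe u v

/-- `F` is an isomorphism of contact manifolds, given by an isomorphism of their section rings:
it preserves the gradings and the brackets. -/
structure IsContactIso {R : Type u} [CommRing R] [Algebra ℂ R] (𝒜 : ℕ → Submodule ℂ R)
    (P : R →ₗ[ℂ] R →ₗ[ℂ] R) {R' : Type v} [CommRing R'] [Algebra ℂ R']
    (𝒜' : ℕ → Submodule ℂ R') (P' : R' →ₗ[ℂ] R' →ₗ[ℂ] R') (F : R ≃ₐ[ℂ] R') : Prop where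
  graded : ∀ k r, r ∈ 𝒜 k ↔ F r ∈ 𝒜' k
  bracket : ∀ a b, F (P a b) = P' (F a) (F b)

/-- `f` is an isomorphism between the Lie algebras `(𝒜 1, P)` and `(𝒜' 1, P')` of contact
vector fields. -/
def IsLieIso {R : Type u} [CommRing R] [Algebra ℂ R] (𝒜 : ℕ → Submodule ℂ R)
    (P : R →ₗ[ℂ] R →ₗ[ℂ] R) {R' : Type v} [CommRing R'] [Algebra ℂ R']
    (𝒜' : ℕ → Submodule ℂ R') (P' : R' →ₗ[ℂ] R' →ₗ[ℂ] R') (f : 𝒜 1 ≃ₗ[ℂ] 𝒜' 1) : Prop :=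
  ∀ a b c : 𝒜 1, P a b = c → P' (f a) (f b) = f c

/-- A contact Fano manifold is determined by its Lie algebra: for every contact Fano manifold
of dimension at least three, every isomorphism of the Lie algebras of contact vector fields is
induced by one and only one isomorphism of contact manifolds. -/
def IsDeterminedByLie {R : Type u} [CommRing R] [Algebra ℂ R] (𝒜 : ℕ → Submodule ℂ R)
    (P : R →ₗ[ℂ] R →ₗ[ℂ] R) : Prop :=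
  ∀ (R' : Type v) [CommRing R'] [Algebra ℂ R'] (𝒜' : ℕ → Submodule ℂ R') [GradedAlgebra 𝒜']
    (P' : R' →ₗ[ℂ] R' →ₗ[ℂ] R'), IsContactFano 𝒜' P' → 3 ≤ Algebra.trdeg ℂ R' →
    ∀ f : 𝒜 1 ≃ₗ[ℂ] 𝒜' 1, IsLieIso 𝒜 P 𝒜' P' f →
      ∃! F : R ≃ₐ[ℂ] R', IsContactIso 𝒜 P 𝒜' P' F ∧ ∀ a : 𝒜 1, F a = f a

/-- The contact automorphisms act transitively on the points of the cone other than the
vertex. -/
def IsTransitive {R : Type u} [CommRing R] [Algebra ℂ R] (𝒜 : ℕ → Submodule ℂ R)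
    (P : R →ₗ[ℂ] R →ₗ[ℂ] R) : Prop :=
  ∀ p q : R →ₐ[ℂ] ℂ, ¬ IsVertex 𝒜 p → ¬ IsVertex 𝒜 q →
    ∃ F : R ≃ₐ[ℂ] R, IsContactIso 𝒜 P 𝒜 P F ∧ ∀ r, p (F r) = q r

/-- Every `𝒜 k` is an irreducible representation of the Lie algebra `(𝒜 1, P)`. -/
def HasIrreduciblePieces {R : Type u} [CommRing R] [Algebra ℂ R] (𝒜 : ℕ → Submodule ℂ R)
    (P : R →ₗ[ℂ] R →ₗ[ℂ] R) : Prop :=
  ∀ (k : ℕ) (N : Submodule ℂ R), N ≤ 𝒜 k → (∀ a ∈ 𝒜 1, ∀ r ∈ N, P a r ∈ N) →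
    N = ⊥ ∨ N = 𝒜 k

end Vale.Agent.P292.H442
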