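import Vale.Agent.P292.H442.Points
import Vale.Agent.P292.H442.Iso

/-! # Lie algebra isomorphisms extend to isomorphisms of contact manifolds. -/

namespace Vale.Agent.P292.H442

open Module LieAlgebra

universe u v

variable {R : Type u} [CommRing R] [Algebra ℂ R] {𝒜 : ℕ → Submodule ℂ R} [GradedAlgebra 𝒜]
  {P : R →ₗ[ℂ] R →ₗ[ℂ] R}
  {R' : Type v} [CommRing R'] [Algebra ℂ R'] {𝒜' : ℕ → Submodule ℂ R'} [GradedAlgebra 𝒜']
  {P' : R' →ₗ[ℂ] R' →ₗ[ℂ] R'}

theorem HasCore.adjoin {hX : IsContactFano 𝒜 P} (hC : HasCore hX) :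
    Algebra.adjoin ℂ (𝒜 1 : Set R) = ⊤ := by
  obtain ⟨_, _, _, _, hC, -⟩ := hC
  exact hC.adjoin_eq_top

/-- Isomorphisms of the Lie algebras carry the points of the cone to the points of the cone. -/
theorem isPt_transport {hX : IsContactFano 𝒜 P} {hX' : IsContactFano 𝒜' P'} (hC : HasCore hX)
    (hC' : HasCore hX') (ψ : LieOne hX ≃ₗ[ℂ] LieOne hX') (hψ : ∀ u v, ψ ⁅u, v⁆ = ⁅ψ u, ψ v⁆)
    (l : Module.Dual ℂ (LieOne hX)) (hl : IsPt hX l) :
    IsPt hX' (l ∘ₗ (ψ.symm : LieOne hX' →ₗ[ℂ] LieOne hX)) := by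
  obtain ⟨e, h, f, x, hC, hss⟩ := hC
  obtain ⟨_, _, _, _, hC', -⟩ := hC'
  have ht := hC.isSl2Triple
  obtain ⟨c, hc0, hc⟩ := exists_extremal hX hC hss
  have hc1 : IsPt hX c := isPt_extremal hX hC _ ht.e_ne_zero c hc hc0
  obtain ⟨σ₁, hσ₁, h1⟩ := hC.exists_eq hss l hl
  obtain ⟨σ₂, hσ₂, h2⟩ := hC.exists_eq hss c hc1
  have hc' : IsPt hX' (c ∘ₗ (ψ.symm : LieOne hX' →ₗ[ℂ] LieOne hX)) := by
    refine isPt_extremal hX' hC' (ψ (LieOne.mk hX hC.he))
      (fun h0 => ht.e_ne_zero (ψ.injective (by rw [h0, map_zero]))) _ (fun u => ?_) (fun h0 => ?_)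
    · have h3 := congrArg ψ (hc (ψ.symm u))
      rw [hψ, hψ, LinearEquiv.apply_symm_apply, map_smul] at h3
      exact h3
    · apply hc0
      ext u
      have h3 := LinearMap.congr_fun h0 (ψ u)
      simpa using h3
  have h3 := hC'.isPt_comp _ (adjointGroup_conj ψ hψ _ (mul_mem (inv_mem hσ₂) hσ₁)) _ hc'
  have h4 : (c ∘ₗ (ψ.symm : LieOne hX' →ₗ[ℂ] LieOne hX)) ∘ₗ
      ((ψ.symm.trans ((σ₂⁻¹ * σ₁).trans ψ) : LieOne hX' ≃ₗ[ℂ] LieOne hX') :
        LieOne hX' →ₗ[ℂ] LieOne hX') = l ∘ₗ (ψ.symm : LieOne hX' →ₗ[ℂ] LieOne hX) := by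
    ext u
    have h5 : σ₂ (σ₂⁻¹ (σ₁ (ψ.symm u))) = σ₁ (ψ.symm u) := LinearEquiv.apply_symm_apply σ₂ _
    simp only [LinearMap.comp_apply, LinearEquiv.coe_coe, LinearEquiv.trans_apply,
      LinearEquiv.symm_apply_apply, LinearEquiv.mul_apply]
    rw [h1, h2, h5]
  rwa [h4] at h3

/-- If the points of one cone are carried to points of the other then there is a
homomorphism of rings in the other direction. -/
theorem exists_lift {hX : IsContactFano 𝒜 P} {hX' : IsContactFano 𝒜' P'} (hC' : HasCore hX')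
    (ψ : LieOne hX' ≃ₗ[ℂ] LieOne hX)
    (hpts : ∀ l, IsPt hX l → IsPt hX' (l ∘ₗ (ψ : LieOne hX' →ₗ[ℂ] LieOne hX))) :
    ∃ F : R' →ₐ[ℂ] R, ∀ u, F (LieOne.incl hX' u) = LieOne.incl hX (ψ u) := by
  classical
  have hdom := hX.domain
  have hft := hX.finiteType
  set Φ : MvPolynomial (LieOne hX') ℂ →ₐ[ℂ] R' := MvPolynomial.aeval (LieOne.incl hX') with hΦd
  have hΦ : Function.Surjective Φ := aeval_incl_surjective hX' hC'.adjoin
  let Ψ : MvPolynomial (LieOne hX') ℂ →ₐ[ℂ] R :=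
    MvPolynomial.aeval (fun u => LieOne.incl hX (ψ u))
  have key : ∀ G, Φ G = 0 → Ψ G = 0 := by
    intro G hG
    by_contra hne
    obtain ⟨p, hp⟩ := exists_point_ne_zero _ hne
    have h1 : ∃ p' : R' →ₐ[ℂ] ℂ, ∀ u, p' (LieOne.incl hX' u) = p (LieOne.incl hX (ψ u)) := by
      by_cases hv : IsVertex 𝒜 p
      · obtain ⟨q, -⟩ := hX'.nonempty
        obtain ⟨p', hp'⟩ := IsContactFano.exists_rescale (𝒜 := 𝒜') q 0
        refine ⟨p', fun u => ?_⟩
        rw [hp' 1 _ (LieOne.incl_mem hX' u), hv 1 one_pos _ (LieOne.incl_mem hX _), pow_one,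
          zero_mul]
      · obtain ⟨p', -, hp'⟩ := hpts (p.toLinearMap ∘ₗ LieOne.incl hX) ⟨p, hv, fun u => rfl⟩
        exact ⟨p', fun u => (hp' u).symm⟩
    obtain ⟨p', hp'⟩ := h1
    have h2 : p.comp Ψ = p'.comp Φ := by
      apply MvPolynomial.algHom_ext
      intro u
      simp [Ψ, Φ, hp']
    have h3 := congrArg (fun F => F G) h2
    simp only [AlgHom.comp_apply, hG, map_zero] at h3
    exact hp h3
  refine ⟨AlgHom.liftOfSurjective Φ hΦ Ψ (fun G hG => key G hG), fun u => ?_⟩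
  have h1 := AlgHom.liftOfSurjective_apply Φ hΦ Ψ (fun G hG => key G hG) (MvPolynomial.X u)
  simp only [Φ, Ψ, MvPolynomial.aeval_X] at h1
  exact h1

omit [GradedAlgebra 𝒜] in
/-- Homomorphisms of rings agreeing on `𝒜 1` agree. -/
theorem hom_ext (hgen : Algebra.adjoin ℂ (𝒜 1 : Set R) = ⊤) {B : Type*} [Semiring B]
    [Algebra ℂ B] {F G : R →ₐ[ℂ] B} (h : ∀ r ∈ 𝒜 1, F r = G r) : F = G :=
  AlgHom.ext_of_adjoin_eq_top hgen h

theorem map_mem_of_adjoin (hgen : Algebra.adjoin ℂ (𝒜 1 : Set R) = ⊤) (F : R →ₐ[ℂ] R')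
    (hF : ∀ r ∈ 𝒜 1, F r ∈ 𝒜' 1) (k : ℕ) (r : R) (hr : r ∈ 𝒜 k) : F r ∈ 𝒜' k := by
  have h1 := mem_pow_of_adjoin hgen hr
  have h2 : ∀ k : ℕ, ∀ r ∈ (𝒜 1) ^ k, F r ∈ 𝒜' k := by
    intro k
    induction k with
    | zero =>
      intro r hr
      rw [pow_zero, Submodule.mem_one] at hr
      obtain ⟨c, rfl⟩ := hr
      rw [AlgHom.commutes]
      exact SetLike.algebraMap_mem_graded 𝒜' c
    | succ k ih =>
      intro r hr
      rw [pow_succ] at hr
      refine Submodule.mul_induction_on hr ?_ ?_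
      · intro a ha b hb
        rw [map_mul]
        exact SetLike.mul_mem_graded (ih a ha) (hF b hb)
      · intro a b ha hb
        rw [map_add]
        exact add_mem ha hb
  exact h2 k r h1

/-- Homomorphisms preserving the brackets of elements of degree one preserve all brackets. -/
theorem map_bracket_of_adjoin (hX : IsContactFano 𝒜 P) (hX' : IsContactFano 𝒜' P')
    (hgen : Algebra.adjoin ℂ (𝒜 1 : Set R) = ⊤) (F : R →ₐ[ℂ] R')
    (hF : ∀ a ∈ 𝒜 1, ∀ b ∈ 𝒜 1, F (P a b) = P' (F a) (F b)) (a b : R) :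
    F (P a b) = P' (F a) (F b) := by
  have h1 : ∀ a ∈ 𝒜 1, ∀ b, F (P a b) = P' (F a) (F b) := by
    intro a ha b
    have hb : b ∈ Algebra.adjoin ℂ (𝒜 1 : Set R) := by rw [hgen]; trivial
    induction hb using Algebra.adjoin_induction with
    | mem b hb => exact hF a ha b hb
    | algebraMap c =>
      rw [hX.P_algebraMap_right, map_zero, AlgHom.commutes, hX'.P_algebraMap_right]
    | add b c _ _ hb hc => rw [map_add, map_add, map_add, map_add, hb, hc]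
    | mul b c _ _ hb hc =>
      rw [hX.leibniz, map_add, map_mul, map_mul, map_mul, hX'.leibniz, hb, hc]
  have ha : a ∈ Algebra.adjoin ℂ (𝒜 1 : Set R) := by rw [hgen]; trivial
  induction ha using Algebra.adjoin_induction with
  | mem a ha => exact h1 a ha b
  | algebraMap c =>
    rw [hX.P_algebraMap_left, map_zero, AlgHom.commutes, hX'.P_algebraMap_left]
  | add a c _ _ ha hc =>
    rw [map_add, LinearMap.add_apply, map_add, map_add, map_add, LinearMap.add_apply, ha, hc]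
  | mul a c _ _ ha hc =>
    rw [hX.leibniz_left, map_add, map_mul, map_mul, map_mul, hX'.leibniz_left, ha, hc]

/-- Isomorphisms of the Lie algebras extend uniquely to isomorphisms of contact manifolds. -/
theorem exists_extension {hX : IsContactFano 𝒜 P} {hX' : IsContactFano 𝒜' P'} (hC : HasCore hX)
    (hC' : HasCore hX') (ψ : LieOne hX ≃ₗ[ℂ] LieOne hX') (hψ : ∀ u v, ψ ⁅u, v⁆ = ⁅ψ u, ψ v⁆) :
    ∃ F : R ≃ₐ[ℂ] R', IsContactIso 𝒜 P 𝒜' P' F ∧
      ∀ u, F (LieOne.incl hX u) = LieOne.incl hX' (ψ u) := by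
  have hψ' : ∀ u v, ψ.symm ⁅u, v⁆ = ⁅ψ.symm u, ψ.symm v⁆ := by
    intro u v
    apply ψ.injective
    rw [hψ, LinearEquiv.apply_symm_apply, LinearEquiv.apply_symm_apply,
      LinearEquiv.apply_symm_apply]
  obtain ⟨F, hF⟩ := exists_lift (hX := hX') (hX' := hX) hC ψ (fun l hl => by
    have h1 := isPt_transport hC' hC ψ.symm hψ' l hl
    exact h1)
  obtain ⟨G, hG⟩ := exists_lift (hX := hX) (hX' := hX') hC' ψ.symm (fun l hl => by
    have h1 := isPt_transport hC hC' ψ hψ l hl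
    exact h1)
  have hFG : F.comp G = AlgHom.id ℂ R' := by
    refine hom_ext hC'.adjoin fun r hr => ?_
    have h1 := hG (LieOne.mk hX' hr)
    rw [LieOne.incl_mk] at h1
    rw [AlgHom.comp_apply, h1, hF, LinearEquiv.apply_symm_apply]
    rfl
  have hGF : G.comp F = AlgHom.id ℂ R := by
    refine hom_ext hC.adjoin fun r hr => ?_
    have h1 := hF (LieOne.mk hX hr)
    rw [LieOne.incl_mk] at h1
    rw [AlgHom.comp_apply, h1, hG, LinearEquiv.symm_apply_apply]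
    rfl
  have hF1 : ∀ r ∈ 𝒜 1, F r ∈ 𝒜' 1 := fun r hr => by
    have h1 := hF (LieOne.mk hX hr)
    rw [LieOne.incl_mk] at h1
    rw [h1]
    exact LieOne.incl_mem hX' _
  have hG1 : ∀ r ∈ 𝒜' 1, G r ∈ 𝒜 1 := fun r hr => by
    have h1 := hG (LieOne.mk hX' hr)
    rw [LieOne.incl_mk] at h1
    rw [h1]
    exact LieOne.incl_mem hX _
  refine ⟨AlgEquiv.ofAlgHom F G hFG hGF, ⟨fun k r => ⟨fun hr => ?_, fun hr => ?_⟩, ?_⟩, hF⟩
  · exact map_mem_of_adjoin hC.adjoin F hF1 k r hr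
  · have h1 := map_mem_of_adjoin hC'.adjoin G hG1 k _ hr
    have h2 : G (F r) = r := AlgHom.congr_fun hGF r
    change G (F r) ∈ 𝒜 k at h1
    rwa [h2] at h1
  · refine map_bracket_of_adjoin hX hX' hC.adjoin F fun a ha b hb => ?_
    have h1 := hF (LieOne.mk hX ha)
    have h2 := hF (LieOne.mk hX hb)
    have h3 := hF ⁅LieOne.mk hX ha, LieOne.mk hX hb⁆
    rw [LieOne.incl_mk] at h1 h2
    rw [LieOne.incl_lie, LieOne.incl_mk, LieOne.incl_mk, hψ, LieOne.incl_lie] at h3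
    rw [h1, h2, h3]

/-- The group of contact automorphisms acts transitively on the nonzero points of the cone. -/
theorem exists_auto {hX : IsContactFano 𝒜 P} (hC : HasCore hX) (p q : R →ₐ[ℂ] ℂ)
    (hp : ¬ IsVertex 𝒜 p) (hq : ¬ IsVertex 𝒜 q) :
    ∃ F : R ≃ₐ[ℂ] R, IsContactIso 𝒜 P 𝒜 P F ∧ ∀ r, p (F r) = q r := by
  obtain ⟨e, h, f, x, hC', hss⟩ := id hC
  obtain ⟨σ₁, hσ₁, h1⟩ := hC'.exists_eq hss (p.toLinearMap ∘ₗ LieOne.incl hX)
    ⟨p, hp, fun u => rfl⟩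
  obtain ⟨σ₂, hσ₂, h2⟩ := hC'.exists_eq hss (q.toLinearMap ∘ₗ LieOne.incl hX)
    ⟨q, hq, fun u => rfl⟩
  obtain ⟨F, hF, hFu⟩ := exists_extension hC hC (σ₁⁻¹ * σ₂)
    (adjointGroup_lie _ (mul_mem (inv_mem hσ₁) hσ₂))
  refine ⟨F, hF, fun r => ?_⟩
  have h3 : p.comp (F : R →ₐ[ℂ] R) = q := by
    refine hom_ext hC.adjoin fun r hr => ?_
    have h4 := hFu (LieOne.mk hX hr)
    rw [LieOne.incl_mk] at h4
    have h5 := h1 ((σ₁⁻¹ * σ₂) (LieOne.mk hX hr))
    have h6 := h2 (LieOne.mk hX hr)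
    simp only [LinearMap.comp_apply, AlgHom.toLinearMap_apply, LieOne.incl_mk] at h5 h6
    have h7 : σ₁ ((σ₁⁻¹ * σ₂) (LieOne.mk hX hr)) = σ₂ (LieOne.mk hX hr) :=
      LinearEquiv.apply_symm_apply σ₁ _
    rw [AlgHom.comp_apply]
    change p (F r) = q r
    rw [h4, h5, h6, h7]
  exact AlgHom.congr_fun h3 r

/-- `H⁰(X, L ^ k)` is an irreducible representation of the contact vector fields. -/
theorem irreducible {hX : IsContactFano 𝒜 P} (hC : HasCore hX) (k : ℕ) (N : Submodule ℂ R)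
    (hN : N ≤ 𝒜 k) (hst : ∀ a ∈ 𝒜 1, ∀ r ∈ N, P a r ∈ N) : N = ⊥ ∨ N = 𝒜 k := by
  obtain ⟨e, h, f, x, hC, -⟩ := hC
  have := hC.isSimple
  have hdom := hX.domain
  rw [or_iff_not_imp_left]
  intro hbot
  let N₁ : LieSubmodule ℂ (LieOne hX) (Piece hX k) :=
    { N.comap (Piece.incl hX k) with
      lie_mem := fun {u m} hm => by
        change Piece.incl hX k ⁅u, m⁆ ∈ N
        rw [Piece.incl_lie]
        exact hst _ (LieOne.incl_mem hX u) _ hm }
  have hNmem : ∀ m, m ∈ N₁ ↔ Piece.incl hX k m ∈ N := fun m => Iff.rfl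
  obtain ⟨N', hN'⟩ := exists_isCompl_lieSubmodule (LieOne hX) (Piece hX k) N₁
  have hek : e ^ k ∈ N := hC.e_pow_mem k N hN hst (by
    by_contra hcon
    push Not at hcon
    exact hbot ((Submodule.eq_bot_iff N).mpr hcon))
  have hN'bot : N' = ⊥ := by
    by_contra hne
    have h1 : ∃ y ∈ N', y ≠ 0 := by
      by_contra hcon
      push Not at hcon
      exact hne ((LieSubmodule.eq_bot_iff N').mpr hcon)
    obtain ⟨y, hy, hy0⟩ := h1
    have := hC.e_pow_mem k ((N' : Submodule ℂ (Piece hX k)).map (Piece.incl hX k)) (by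
      rintro _ ⟨z, -, rfl⟩; exact Piece.incl_mem hX k z) (by
      rintro u hu _ ⟨z, hz, rfl⟩
      refine ⟨⁅LieOne.mk hX hu, z⁆, N'.lie_mem hz, ?_⟩
      simp) ⟨Piece.incl hX k y, ⟨y, hy, rfl⟩, fun h0 => hy0 (Piece.incl_injective hX k
        (by rw [h0, map_zero]))⟩
    obtain ⟨z, hz, hze⟩ := this
    have hzN : z ∈ N₁ := by rw [hNmem, hze]; exact hek
    have hz0 : z ∈ N₁ ⊓ N' := ⟨hzN, hz⟩
    rw [hN'.inf_eq_bot] at hz0
    have hz1 : z = 0 := hz0
    rw [hz1, map_zero] at hze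
    exact pow_ne_zero k hC.e_ne_zero hze.symm
  have hNtop : N₁ = ⊤ := by
    have := hN'.sup_eq_top
    rwa [hN'bot, sup_bot_eq] at this
  refine le_antisymm hN fun r hr => ?_
  have : Piece.mk hX hr ∈ N₁ := by rw [hNtop]; trivial
  exact (hNmem _).mp this

end Vale.Agent.P292.H442
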