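import Vale.Agent.P292.Dn.B5

/-! # Contact Fano manifolds: the core data, after the classification.

Every contact Fano manifold of dimension at least three carries the core data: an
`sl₂`-triple in its Lie algebra whose positive nilpotent element is extremal. -/

namespace Vale.Agent.P292.H442

open Module LieAlgebra

universe u

variable {R : Type u} [CommRing R] [Algebra ℂ R] {𝒜 : ℕ → Submodule ℂ R} [GradedAlgebra 𝒜]
  {P : R →ₗ[ℂ] R →ₗ[ℂ] R} {H : R} {a : ℤ}

/-- The core data exists. -/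
def HasCore (hX : IsContactFano 𝒜 P) : Prop :=
  ∃ (e h f : R) (x : R →ₐ[ℂ] ℂ) (hC : IsCore hX e h f x), ∀ u : LieOne hX,
    u ∈ ⨆ i : Fin 5, Module.End.eigenspace
      (LieAlgebra.ad ℂ (LieOne hX) (LieOne.mk hX hC.hh)) ((i : ℂ) - 2)

/-- The core data from an extremal triple. -/
theorem hasCore_of_triple (hX : IsContactFano 𝒜 P) (hH : IsContactTorus 𝒜 P H)
    (hmax : IsMaxSlope 𝒜 P H a) {e h f : R} (he : e ∈ Wt 𝒜 P H 1 a)
    (hf : f ∈ Wt 𝒜 P H 1 (-a)) (hef : P e f = h) (hhe : P h e = (2 : ℂ) • e)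
    (hhf : P h f = -((2 : ℂ) • f))
    (hgen : ∀ k : ℕ, ∀ w ∈ Wt 𝒜 P H k (a * k), ∃ l : ℂ, w = l • e ^ k)
    (hT : IsContactTorus 𝒜 P h)
    {x : R →ₐ[ℂ] ℂ} (hx : HasSlope 𝒜 P H x a) (hxe : x e ≠ 0) : HasCore hX := by
  obtain ⟨hneg, ha⟩ := hmax.neg hX hH
  obtain ⟨x', hx'⟩ := IsContactFano.exists_rescale (𝒜 := 𝒜) x (x e)⁻¹
  have hx'e : x' e = 1 := by
    rw [hx' 1 e (mem_Wt.mp he).1, pow_one, inv_mul_cancel₀ hxe]
  have hx's : HasSlope 𝒜 P H x' a := by
    rw [hasSlope_iff hH]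
    refine ⟨fun hv => ?_, fun k m r hr hm => ?_⟩
    · rw [hv 1 one_pos e (mem_Wt.mp he).1] at hx'e
      exact zero_ne_one hx'e
    · rw [hx' k r (mem_Wt.mp hr).1, ((hasSlope_iff hH x a).1 hx).2 k m r hr hm, mul_zero]
  have hC := isPreCore_of_torus hX hH hmax he hf hef hhe hhf hgen hx's hx'e
  have hcore : IsCore hX e h f x' := isCore_of_torus hX hC hT
  have he3 : ∀ v ∈ 𝒜 1, P e (P e (P e v)) = 0 := by
    intro v hv
    refine hH.forall_of_Wt ((P e).comp ((P e).comp (P e))) 1 (fun m s hs => ?_) v hv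
    change P e (P e (P e s)) = 0
    by_contra hne
    have hs0 : s ≠ 0 := by
      rintro rfl
      exact hne (by rw [map_zero, map_zero, map_zero])
    have h3 : s ∈ Wt 𝒜 P (-H) 1 (-m) := by rwa [Wt_neg, neg_neg]
    have h4 := hneg.le 1 (-m) s h3 hs0
    have h5 : P e (P e (P e s)) ∈ Wt 𝒜 P H 1 (a + (a + (a + m))) :=
      Wt_P hX (k := 1) (l := 1) (j := 1) rfl he (Wt_P hX (k := 1) (l := 1) (j := 1) rfl he
        (Wt_P hX (k := 1) (l := 1) (j := 1) rfl he hs))
    have h6 := hmax.le 1 _ _ h5 hne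
    push_cast at h4 h6
    omega
  have hfd : FiniteDimensional ℂ (LieOne hX) := by
    have := hX.finiteType
    exact finiteDimensional_piece 𝒜 hX.connected 1
  refine ⟨e, h, f, x', hcore, fun u => ?_⟩
  set E : LieOne hX := LieOne.mk hX hC.he with hE
  set h' : LieOne hX := LieOne.mk hX hC.hh with hh'
  set F : LieOne hX := LieOne.mk hX hC.hf with hF
  refine iSup_eigenspace_of_cube (LieAlgebra.ad ℂ (LieOne hX) E) (LieAlgebra.ad ℂ (LieOne hX) h')
    (LieAlgebra.ad ℂ (LieOne hX) F) ?_ ?_ ?_ ?_ ?_ u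
  · ext v
    apply LieOne.incl_injective hX
    change P e (P f (LieOne.incl hX v)) - P f (P e (LieOne.incl hX v)) = P h (LieOne.incl hX v)
    rw [hX.jacobi e f, hC.ef, add_sub_cancel_right]
  · ext v
    apply LieOne.incl_injective hX
    change P h (P e (LieOne.incl hX v)) - P e (P h (LieOne.incl hX v)) =
      (2 : ℂ) • P e (LieOne.incl hX v)
    rw [hX.jacobi h e, hC.h_e, add_sub_cancel_right, map_smul, LinearMap.smul_apply]
  · ext v
    apply LieOne.incl_injective hX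
    change P h (P f (LieOne.incl hX v)) - P f (P h (LieOne.incl hX v)) =
      -((2 : ℂ) • P f (LieOne.incl hX v))
    rw [hX.jacobi h f, hC.h_f, add_sub_cancel_right, map_neg, map_smul, LinearMap.neg_apply,
      LinearMap.smul_apply]
  · ext v
    apply LieOne.incl_injective hX
    exact he3 _ (LieOne.incl_mem hX v)
  · ext v
    apply LieOne.incl_injective hX
    exact hC.iterate_succ_eq_zero 1 _ (LieOne.incl_mem hX v)
/-- The core data from a contact torus whose source and sink avoid the base locus. -/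
theorem hasCore_of_sourceFree (hX : IsContactFano 𝒜 P) {H : R}
    (hH : IsContactTorus 𝒜 P H) (hp : IsSourceFree 𝒜 P H)
    (hm : IsSourceFree 𝒜 P (-H)) : HasCore hX := by
  obtain ⟨a, hmax⟩ := exists_isMaxSlope hX hH
  obtain ⟨hmax', ha⟩ := hmax.neg hX hH
  have hne : ∃ e ∈ Wt 𝒜 P H 1 a, e ≠ 0 := by
    obtain ⟨y, hy⟩ := hmax.exists_slope
    obtain ⟨s, hs, hys⟩ := exists_Wt_one_of_sourceFree hX hH hmax hp hy
    exact ⟨s, hs, fun h => hys (by rw [h, map_zero])⟩
  obtain ⟨e, h, f, hT, huniq⟩ := exists_primitive hX hH hmax hmax' hne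
    (fun e he he0 => exists_P_P_ne_zero hX hH hmax hm he he0)
  obtain ⟨N, hN⟩ := hT.exists_refine hX hH hmax hmax'
  have hH' := hT.isContactTorus hX hH ha N
  obtain ⟨a', hmaxN⟩ := exists_isMaxSlope hX hH'
  have hWt : ∀ (c j : ℤ) (r : R), r ∈ Wt 𝒜 P H 1 c → P h r = (j : ℂ) • r →
      r ∈ Wt 𝒜 P ((N : ℂ) • H + h) 1 (N * c + j) := by
    intro c j r hr hrj
    rw [mem_Wt] at hr ⊢
    refine ⟨hr.1, ?_⟩
    rw [map_add, map_smul, LinearMap.add_apply, LinearMap.smul_apply, hr.2, hrj]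
    push_cast
    module
  have he' : e ∈ Wt 𝒜 P ((N : ℂ) • H + h) 1 (N * a + 2) :=
    hWt a 2 e hT.he (by rw [hT.h_e]; norm_num)
  have hf' : f ∈ Wt 𝒜 P ((N : ℂ) • H + h) 1 (-(N * a + 2)) := by
    have h1 := hWt (-a) (-2) f hT.hf (by rw [hT.h_f]; push_cast; module)
    have h2 : (N : ℤ) * -a + -2 = -(N * a + 2) := by ring
    rwa [h2] at h1
  have hle : N * a + 2 ≤ a' := by
    have := hmaxN.le 1 _ e he' hT.e_ne
    simpa using this
  have key : ∀ p, HasSlope 𝒜 P ((N : ℂ) • H + h) p a' → a' = N * a + 2 ∧ p e ≠ 0 := by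
    intro p hpN
    have hpH := hN N le_rfl a' hmaxN p hpN
    obtain ⟨s, hs, hps⟩ := exists_Wt_one_of_sourceFree hX hH hmax hp hpH
    obtain ⟨⟨m, j⟩, r, hr, hpr⟩ : ∃ mj : ℤ × ℤ, ∃ r ∈ Wt 𝒜 P H 1 mj.1 ⊓ Wt 𝒜 P h 1 mj.2,
        p r ≠ 0 := by
      by_contra hcon
      push Not at hcon
      have h1 : (⨆ mj : ℤ × ℤ, Wt 𝒜 P H 1 mj.1 ⊓ Wt 𝒜 P h 1 mj.2) ≤
          LinearMap.ker p.toLinearMap := iSup_le fun mj r hr => hcon mj r hr
      exact hps (h1 (hT.le_iSup hX hH 1 (mem_Wt.mp hs).1))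
    obtain ⟨hrH, hrh⟩ := Submodule.mem_inf.mp hr
    simp only at hrH hrh
    have hr0 : r ≠ 0 := fun h0 => hpr (by rw [h0, map_zero])
    have hma : m = a := by
      by_contra hma
      exact hpr (((hasSlope_iff hH p a).mp hpH).2 1 m r hrH (by simpa using hma))
    subst hma
    have hrN := hWt m j r hrH (mem_Wt.mp hrh).2
    have hja : N * m + j = a' := by
      by_contra hne
      exact hpr (((hasSlope_iff hH' p a').mp hpN).2 1 _ r hrN (by simpa using hne))
    have hj2 := (hT.eigen_one hX hH hmax hmax' hrh hr0).2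
    have hj : j = 2 := by linarith
    subst hj
    refine ⟨hja.symm, ?_⟩
    obtain ⟨c, hc⟩ := huniq r hrH (by
      have := (mem_Wt.mp hrh).2
      push_cast at this
      exact this)
    intro hpe
    refine hpr ?_
    rw [hc, map_smul, hpe, smul_zero]
  obtain ⟨p₀, hp₀⟩ := hmaxN.exists_slope
  obtain ⟨ha', hp₀e⟩ := key p₀ hp₀
  subst ha'
  exact hasCore_of_triple hX hH' hmaxN he' hf' hT.ef hT.h_e hT.h_f
    (fun k w hw => eq_smul_pow_of_nonvanishing hX hH' hmaxN he' (fun p hp => (key p hp).2) k w hw)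
    (hT.isContactTorus_h hX hH) hp₀ hp₀e

/-- The finite-dimensional simple Lie algebra contains an element with a non-nilpotent adjoint
action, seen on a single vector. -/
theorem exists_not_nilpotent {g : Type u} [LieRing g] [LieAlgebra ℂ g] [FiniteDimensional ℂ g]
    [LieAlgebra.IsSimple ℂ g] : ∃ x y : g, ∀ n : ℕ, ((LieAlgebra.ad ℂ g x) ^ n) y ≠ 0 := by
  by_contra hcon
  push Not at hcon
  have h1 : LieRing.IsNilpotent g := by
    rw [LieAlgebra.isNilpotent_iff_forall (R := ℂ)]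
    intro x
    rw [Module.End.isNilpotent_iff_of_finite]
    exact hcon x
  have h2 : LieAlgebra.IsSolvable g := inferInstance
  have h3 : LieAlgebra.HasTrivialRadical ℂ g := inferInstance
  have h4 : (⊤ : LieIdeal ℂ g) = ⊥ := by
    rw [LieAlgebra.hasTrivialRadical_iff_no_solvable_ideals] at h3
    exact h3 ⊤ inferInstance
  have h5 : ∀ z : g, z = 0 := fun z => by
    have : z ∈ (⊤ : LieIdeal ℂ g) := trivial
    rw [h4] at this
    simpa using this
  refine LieAlgebra.IsSimple.non_abelian ℂ (L := g) ⟨fun a b => h5 _⟩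

/-- If `R` is generated in degree one then `𝒜 k` is the `k`-th power of `𝒜 1`. -/
theorem mem_pow_of_adjoin (hgen : Algebra.adjoin ℂ (𝒜 1 : Set R) = ⊤) {k : ℕ} {r : R}
    (hr : r ∈ 𝒜 k) : r ∈ (𝒜 1) ^ k := by
  have h1 := proj_mem_pow (𝒜 := 𝒜) r (by rw [hgen]; trivial) k
  rwa [DirectSum.decompose_of_mem_same 𝒜 hr] at h1

/-- If `R` is generated in degree one then the points vanishing on `𝒜 1` are vertices. -/
theorem isVertex_of_adjoin (hgen : Algebra.adjoin ℂ (𝒜 1 : Set R) = ⊤) (p : R →ₐ[ℂ] ℂ)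
    (hp : ∀ u ∈ 𝒜 1, p u = 0) : IsVertex 𝒜 p := by
  intro k hk r hr
  obtain ⟨k, rfl⟩ := Nat.exists_eq_succ_of_ne_zero hk.ne'
  have h1 := mem_pow_of_adjoin hgen hr
  rw [pow_succ] at h1
  refine Submodule.mul_induction_on h1 ?_ ?_
  · intro a _ b hb
    rw [map_mul, hp b hb, mul_zero]
  · intro a b ha hb
    rw [map_add, ha, hb, add_zero]

/-- Source freeness is automatic for rings generated in degree one. -/
theorem isSourceFree_of_adjoin (hgen : Algebra.adjoin ℂ (𝒜 1 : Set R) = ⊤)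
    (H : R) : IsSourceFree 𝒜 P H := by
  rintro p ⟨a, ⟨hv, -⟩, -⟩
  by_contra hcon
  push Not at hcon
  exact hv (isVertex_of_adjoin hgen p hcon)

/-- Every contact Fano manifold of dimension at least three has the core data. -/
theorem hasCore (hX : IsContactFano 𝒜 P) (hdim : 3 ≤ Algebra.trdeg ℂ R) : HasCore hX := by
  obtain ⟨g, _, _, _, _, φ, O, hφ, hr, hlie, hgen, -, -⟩ := isAdjointVariety_of_contactFano hX hdim
  obtain ⟨x, y, hxy⟩ := exists_not_nilpotent (g := g)
  have hmem : ∀ u, φ u ∈ 𝒜 1 := fun u => hr ▸ LinearMap.mem_range_self φ u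
  have hit : ∀ n : ℕ, (⇑(P (φ x)))^[n] (φ y) = φ (((LieAlgebra.ad ℂ g x) ^ n) y) := by
    intro n
    induction n with
    | zero => rfl
    | succ n ih =>
      rw [Function.iterate_succ_apply', ih, pow_succ', Module.End.mul_apply, ← hlie]
      rfl
  obtain ⟨H, hH⟩ := exists_isContactTorus_of_not_nilpotent hX (hmem x) (hmem y) (fun n => by
    rw [hit]
    exact fun h0 => hxy n (hφ (by rw [h0, map_zero])))
  exact hasCore_of_sourceFree hX hH (isSourceFree_of_adjoin hgen H) (isSourceFree_of_adjoin hgen _)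

end Vale.Agent.P292.H442
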