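import Vale.Agent.P292.H442.Core

/-! # The points of the cone depend only on the Lie algebra. -/

namespace Vale.Agent.P292.H442

open Module LieAlgebra

universe u v

section adjoint

variable {g : Type u} [LieRing g] [LieAlgebra ℂ g] {g' : Type v} [LieRing g'] [LieAlgebra ℂ g']

/-- The elements of the adjoint group are automorphisms of the Lie algebra. -/
theorem adjointGroup_lie (σ : g ≃ₗ[ℂ] g) (hσ : σ ∈ adjointGroup g) (u v : g) :
    σ ⁅u, v⁆ = ⁅σ u, σ v⁆ := by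
  refine adjointGroup_induction (Q := fun σ => ∀ u v, σ ⁅u, v⁆ = ⁅σ u, σ v⁆) ?_ ?_ ?_ σ hσ u v
  · intro x n hx u v
    let i1 : Module ℚ g := Module.compHom g (algebraMap ℚ ℂ)
    let i2 : LieAlgebra ℚ g := { lie_smul := fun t a b => lie_smul (algebraMap ℚ ℂ t) a b }
    have had : (LieDerivation.ad ℂ g x).toLinearMap = ad ℂ g x := by
      ext y
      simp
    have hx2 : ((LieDerivation.ad ℂ g x).toLinearMap) ^ (n + 1) = 0 := by rw [had, hx]
    have hnil : IsNilpotent (LieDerivation.ad ℂ g x).toLinearMap := ⟨n + 1, hx2⟩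
    have h1 : ∀ y, expAd x n hx y = LieDerivation.exp (LieDerivation.ad ℂ g x) hnil y := by
      intro y
      rw [LieDerivation.exp_map_apply, IsNilpotent.exp_eq_sum hx2, expAd_apply, had,
        LinearMap.sum_apply]
      refine Finset.sum_congr rfl fun l _ => ?_
      rw [LinearMap.smul_apply]
      change _ = (algebraMap ℚ ℂ (l.factorial : ℚ)⁻¹) • (((ad ℂ g x) ^ l) y)
      rw [map_inv₀, map_natCast]
    rw [h1, h1, h1, LieEquiv.map_lie]
  · intro u v; rfl
  · intro σ τ h1 h2 u v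
    change σ (τ _) = ⁅σ (τ _), σ (τ _)⁆
    rw [h2, h1]

/-- Isomorphisms of Lie algebras carry the adjoint group to the adjoint group. -/
theorem adjointGroup_conj (ψ : g ≃ₗ[ℂ] g') (hψ : ∀ u v, ψ ⁅u, v⁆ = ⁅ψ u, ψ v⁆)
    (σ : g ≃ₗ[ℂ] g) (hσ : σ ∈ adjointGroup g) :
    ψ.symm.trans (σ.trans ψ) ∈ adjointGroup g' := by
  refine adjointGroup_induction (Q := fun σ => ψ.symm.trans (σ.trans ψ) ∈ adjointGroup g')
    ?_ ?_ ?_ σ hσ
  · intro x n hx
    have h1 : ∀ (k : ℕ) (y : g'), ((ad ℂ g' (ψ x)) ^ k) y = ψ (((ad ℂ g x) ^ k) (ψ.symm y)) := by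
      intro k
      induction k with
      | zero => intro y; simp
      | succ k ih =>
        intro y
        rw [pow_succ', Module.End.mul_apply, ih, pow_succ', Module.End.mul_apply, ad_apply,
          ad_apply, hψ]
    have hx' : (ad ℂ g' (ψ x)) ^ (n + 1) = 0 := by
      ext y
      rw [h1, hx]
      simp
    have h2 : ψ.symm.trans ((expAd x n hx).trans ψ) = expAd (ψ x) n hx' := by
      ext y
      rw [LinearEquiv.trans_apply, LinearEquiv.trans_apply, expAd_apply, expAd_apply, map_sum]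
      refine Finset.sum_congr rfl fun l _ => ?_
      rw [map_smul, h1]
    rw [h2]
    exact expAd_mem _ _ _
  · have h1 : ψ.symm.trans ((1 : g ≃ₗ[ℂ] g).trans ψ) = 1 := by
      ext y
      simp
    rw [h1]
    exact one_mem _
  · intro σ τ h1 h2
    have h3 : ψ.symm.trans ((σ * τ).trans ψ) =
        (ψ.symm.trans (σ.trans ψ)) * (ψ.symm.trans (τ.trans ψ)) := by
      ext y
      simp
    rw [h3]
    exact mul_mem h1 h2

end adjoint

section points

variable {R : Type u} [CommRing R] [Algebra ℂ R] {𝒜 : ℕ → Submodule ℂ R} [GradedAlgebra 𝒜]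
  {P : R →ₗ[ℂ] R →ₗ[ℂ] R}

/-- The presentation of a ring generated in degree one. -/
theorem aeval_incl_surjective (hX : IsContactFano 𝒜 P)
    (hgen : Algebra.adjoin ℂ (𝒜 1 : Set R) = ⊤) :
    Function.Surjective (MvPolynomial.aeval (LieOne.incl hX) :
      MvPolynomial (LieOne hX) ℂ →ₐ[ℂ] R) := by
  rw [← AlgHom.range_eq_top, eq_top_iff, ← hgen, Algebra.adjoin_le_iff]
  intro u hu
  refine ⟨MvPolynomial.X (LieOne.mk hX hu), ?_⟩
  simp

theorem isPt_smul (hX : IsContactFano 𝒜 P) (hgen : Algebra.adjoin ℂ (𝒜 1 : Set R) = ⊤)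
    (l : Module.Dual ℂ (LieOne hX)) (hl : IsPt hX l) (t : ℂ) (ht : t ≠ 0) :
    IsPt hX (t • l) := by
  obtain ⟨p, hp, hpl⟩ := hl
  obtain ⟨q, hq⟩ := IsContactFano.exists_rescale (𝒜 := 𝒜) p t
  have h1 : ∀ u, (t • l) u = q (LieOne.incl hX u) := fun u => by
    rw [hq 1 _ (LieOne.incl_mem hX u), pow_one, LinearMap.smul_apply, hpl, smul_eq_mul]
  refine ⟨q, fun hv => hp (isVertex_of_adjoin hgen p fun u hu => ?_), h1⟩
  have h2 := h1 (LieOne.mk hX hu)
  rw [LieOne.incl_mk, hv 1 one_pos u hu, LinearMap.smul_apply, hpl, LieOne.incl_mk,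
    smul_eq_mul] at h2
  exact (mul_eq_zero.mp h2).resolve_left ht

/-- The cone is closed: limits of quadratic families of points are points. -/
theorem isPt_limit (hX : IsContactFano 𝒜 P) (hgen : Algebra.adjoin ℂ (𝒜 1 : Set R) = ⊤)
    (l₀ l₁ l₂ : Module.Dual ℂ (LieOne hX)) (h : ∀ t : ℂ, IsPt hX (l₀ + t • l₁ + t ^ 2 • l₂))
    (hl : l₂ ≠ 0) : IsPt hX l₂ := by
  classical
  set Φ : MvPolynomial (LieOne hX) ℂ →ₐ[ℂ] R := MvPolynomial.aeval (LieOne.incl hX) with hΦd
  have hΦ : Function.Surjective Φ := aeval_incl_surjective hX hgen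
  have hpt : ∀ s : ℂ, s ≠ 0 → ∃ p : R →ₐ[ℂ] ℂ, ∀ u,
      p (LieOne.incl hX u) = l₂ u + s * l₁ u + s ^ 2 * l₀ u := by
    intro s hs
    obtain ⟨p, -, hpu⟩ := h s⁻¹
    obtain ⟨q, hq⟩ := IsContactFano.exists_rescale (𝒜 := 𝒜) p (s ^ 2)
    refine ⟨q, fun u => ?_⟩
    rw [hq 1 _ (LieOne.incl_mem hX u), pow_one, ← hpu]
    simp only [LinearMap.add_apply, LinearMap.smul_apply, smul_eq_mul]
    field_simp
    ring
  let Ψ : MvPolynomial (LieOne hX) ℂ →ₐ[ℂ] Polynomial ℂ := MvPolynomial.aeval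
    (fun u => Polynomial.C (l₂ u) + Polynomial.X * Polynomial.C (l₁ u) +
      Polynomial.X ^ 2 * Polynomial.C (l₀ u))
  have key : ∀ G, Φ G = 0 → MvPolynomial.aeval (fun u : LieOne hX => l₂ u) G = (0 : ℂ) := by
    intro G hG
    have h1 : ∀ s : ℂ, s ≠ 0 → (Ψ G).eval s = 0 := by
      intro s hs
      obtain ⟨p, hp⟩ := hpt s hs
      have h2 : (Polynomial.aeval s).comp Ψ = p.comp Φ := by
        apply MvPolynomial.algHom_ext
        intro u
        simp [Ψ, Φ, hp]
        ring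
      have h3 := congrArg (fun F => F G) h2
      simp only [AlgHom.comp_apply, hG, map_zero] at h3
      rwa [Polynomial.coe_aeval_eq_eval] at h3
    have h2 : Ψ G = 0 := by
      apply Polynomial.eq_zero_of_infinite_isRoot
      refine Set.Infinite.mono (s := {s : ℂ | s ≠ 0}) (fun s hs => h1 s hs) ?_
      have : {s : ℂ | s ≠ 0} = ({0} : Set ℂ)ᶜ := by ext; simp
      rw [this]
      exact (Set.finite_singleton (0 : ℂ)).infinite_compl
    have h3 : (Polynomial.aeval (0 : ℂ)).comp Ψ =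
        MvPolynomial.aeval (fun u : LieOne hX => l₂ u) := by
      apply MvPolynomial.algHom_ext
      intro u
      simp [Ψ]
    rw [← h3, AlgHom.comp_apply, h2, map_zero]
  let p : R →ₐ[ℂ] ℂ := AlgHom.liftOfSurjective Φ hΦ (MvPolynomial.aeval fun u => l₂ u)
    (fun G hG => key G hG)
  have hp : ∀ G, p (Φ G) = MvPolynomial.aeval (fun u => l₂ u) G := fun G =>
    AlgHom.liftOfSurjective_apply Φ hΦ _ _ G
  have hpu : ∀ u, l₂ u = p (LieOne.incl hX u) := by
    intro u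
    have h1 := hp (MvPolynomial.X u)
    simp only [Φ, MvPolynomial.aeval_X] at h1
    exact h1.symm
  refine ⟨p, fun hv => hl ?_, hpu⟩
  ext u
  rw [hpu, hv 1 one_pos _ (LieOne.incl_mem hX u)]
  rfl

/-- If `E` is extremal, `⁅E, ⁅E, u⁆⁆ = c u • E`, then the form `c` is a point of the cone. -/
theorem isPt_extremal (hX : IsContactFano 𝒜 P) {e h f : R} {x : R →ₐ[ℂ] ℂ}
    (hC : IsCore hX e h f x) (E : LieOne hX) (hE : E ≠ 0) (c : Module.Dual ℂ (LieOne hX))
    (hc : ∀ u, ⁅E, ⁅E, u⁆⁆ = c u • E) (hc0 : c ≠ 0) : IsPt hX c := by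
  have hdom := hX.domain
  have hft := hX.finiteType
  have hgen := hC.adjoin_eq_top
  obtain ⟨p, hp⟩ := exists_point_ne_zero (LieOne.incl hX E)
    (fun h0 => hE (LieOne.incl_injective hX (by rw [h0, map_zero])))
  let l : Module.Dual ℂ (LieOne hX) := p.toLinearMap ∘ₗ LieOne.incl hX
  have hlE : l E ≠ 0 := hp
  have hl : IsPt hX l := ⟨p, fun hv => hp (hv 1 one_pos _ (LieOne.incl_mem hX E)), fun u => rfl⟩
  have hcube : (ad ℂ (LieOne hX) E) ^ (2 + 1) = 0 := by
    ext u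
    rw [pow_succ', pow_succ', pow_succ', pow_zero]
    simp only [Module.End.mul_apply, Module.End.one_apply, ad_apply, hc, lie_smul, lie_self,
      smul_zero, LinearMap.zero_apply]
  have hnil : ∀ t : ℂ, (ad ℂ (LieOne hX) (t • E)) ^ (2 + 1) = 0 := by
    intro t
    rw [map_smul, smul_pow, hcube, smul_zero]
  have h1 : ∀ t : ℂ, IsPt hX (l + t • (l ∘ₗ (ad ℂ (LieOne hX) E)) +
      t ^ 2 • (((2 : ℂ)⁻¹ * l E) • c)) := by
    intro t
    have h2 := hC.isPt_comp_expAd (t • E) 2 (hnil t) l hl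
    have h3 : l ∘ₗ (expAd (t • E) 2 (hnil t) : LieOne hX →ₗ[ℂ] LieOne hX) =
        l + t • (l ∘ₗ (ad ℂ (LieOne hX) E)) + t ^ 2 • (((2 : ℂ)⁻¹ * l E) • c) := by
      ext u
      rw [LinearMap.comp_apply, LinearEquiv.coe_coe, expAd_apply]
      simp only [Finset.sum_range_succ, Finset.sum_range_zero, pow_zero, pow_one, pow_two,
        Module.End.mul_apply, Module.End.one_apply, ad_apply, hc,
        map_add, map_smul, LinearMap.add_apply, LinearMap.smul_apply, LinearMap.comp_apply,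
        Nat.factorial, smul_eq_mul, zero_add, Nat.cast_one, inv_one, mul_one,
        Nat.cast_mul, one_smul]
      norm_num
      ring
    rw [← h3]
    exact h2
  have h2 := isPt_limit hX hgen _ _ _ h1 (smul_ne_zero (mul_ne_zero (by norm_num) hlE) hc0)
  have h3 := isPt_smul hX hgen _ h2 ((2 : ℂ)⁻¹ * l E)⁻¹
    (inv_ne_zero (mul_ne_zero (by norm_num) hlE))
  rwa [smul_smul, inv_mul_cancel₀ (mul_ne_zero (by norm_num) hlE), one_smul] at h3

/-- The extremal form of the core data. -/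
theorem exists_extremal (hX : IsContactFano 𝒜 P) {e h f : R} {x : R →ₐ[ℂ] ℂ}
    (hC : IsCore hX e h f x) (hss : ∀ u : LieOne hX, u ∈ ⨆ i : Fin 5, Module.End.eigenspace
        (LieAlgebra.ad ℂ (LieOne hX) (LieOne.mk hX hC.hh)) ((i : ℂ) - 2)) :
    ∃ c : Module.Dual ℂ (LieOne hX), c ≠ 0 ∧
      ∀ u, ⁅LieOne.mk hX hC.he, ⁅LieOne.mk hX hC.he, u⁆⁆ = c u • LieOne.mk hX hC.he := by
  set e' := LieOne.mk hX hC.he with he'
  set h' := LieOne.mk hX hC.hh with hh'
  set f' := LieOne.mk hX hC.hf with hf'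
  have ht : IsSl2Triple h' e' f' := hC.isSl2Triple
  have hehe : ⁅h', e'⁆ = (2 : ℂ) • e' := ht.lie_h_e_smul ℂ
  have h1 : ∀ u : LieOne hX, ⁅h', ⁅e', ⁅e', u⁆⁆⁆ = (2 : ℂ) • ⁅e', ⁅e', u⁆⁆ := by
    intro u
    have h2 : ∀ u : LieOne hX, ((ad ℂ (LieOne hX) h' - (2 : ℂ) • (1 : Module.End ℂ (LieOne hX))) ∘ₗ
        (ad ℂ (LieOne hX) e') ∘ₗ (ad ℂ (LieOne hX) e')) u = 0 := by
      refine forall_of_eigen h' hss _ (fun i u hu => ?_)
      have h3 : ⁅h', ⁅e', ⁅e', u⁆⁆⁆ = ((2 : ℂ) + (2 + ((i : ℂ) - 2))) • ⁅e', ⁅e', u⁆⁆ :=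
        eigen_lie h' hehe (eigen_lie h' hehe hu)
      simp only [LinearMap.comp_apply, LinearMap.sub_apply, ad_apply, LinearMap.smul_apply,
        Module.End.one_apply]
      by_cases hi : (i : ℕ) = 0
      · rw [h3, hi, ← sub_smul]
        norm_num
      · have h4 : ⁅e', ⁅e', u⁆⁆ = 0 := by
          refine eq_zero_of_eigen h' hss _ (fun j hj => ?_) _ h3
          have h5 : ((j : ℕ) : ℂ) = ((i + 4 : ℕ) : ℂ) := by
            push_cast
            linear_combination hj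
          have h6 : (j : ℕ) = i + 4 := by exact_mod_cast h5
          omega
        rw [h4, lie_zero, smul_zero, sub_zero]
    have h3 := h2 u
    simp only [LinearMap.comp_apply, LinearMap.sub_apply, ad_apply, LinearMap.smul_apply,
      Module.End.one_apply] at h3
    exact sub_eq_zero.mp h3
  refine ⟨x.toLinearMap ∘ₗ LieOne.incl hX ∘ₗ (ad ℂ (LieOne hX) e') ∘ₗ (ad ℂ (LieOne hX) e'),
    fun h0 => ?_, fun u => hC.eq_smul_e _ (h1 u)⟩
  have h2 := LinearMap.congr_fun h0 f'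
  simp only [LinearMap.comp_apply, ad_apply, LinearMap.zero_apply] at h2
  have hef : ⁅e', f'⁆ = h' := ht.lie_e_f
  rw [hef, ← lie_skew, hehe, map_neg, map_smul, map_neg, map_smul] at h2
  have h3 : x.toLinearMap (LieOne.incl hX e') = 1 := hC.xe
  rw [h3] at h2
  norm_num at h2

end points

end Vale.Agent.P292.H442
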