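import Vale.Agent.P292.H442.Ext

/-! # The cone is cut out by quadrics. -/

namespace Vale.Agent.P292.H442

open Module LieAlgebra

universe u

/-- `X` is the intersection of the quadrics containing it in `ℙ(H⁰(X, L)^*)`: every linear form
on `𝒜 1` satisfying all the quadratic relations of `R` is the restriction of a point of the
cone. -/
def IsCutOutByQuadrics {R : Type u} [CommRing R] [Algebra ℂ R] (𝒜 : ℕ → Submodule ℂ R) : Prop :=
  ∀ l : 𝒜 1 →ₗ[ℂ] ℂ, (∀ (n : ℕ) (a b : Fin n → 𝒜 1), ∑ i, (a i : R) * b i = 0 →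
    ∑ i, l (a i) * l (b i) = 0) → ∃ p : R →ₐ[ℂ] ℂ, ∀ u : 𝒜 1, p u = l u

variable {R : Type u} [CommRing R] [Algebra ℂ R] {𝒜 : ℕ → Submodule ℂ R} [GradedAlgebra 𝒜]
  {P : R →ₗ[ℂ] R →ₗ[ℂ] R}

/-- All the elements of `𝔤` dual to the points of the cone satisfy the same equation. -/
theorem exists_constant {hX : IsContactFano 𝒜 P} (hC : HasCore hX) :
    ∃ lam : ℂ, lam ≠ 0 ∧ ∀ y : LieOne hX, IsPt hX (killingForm ℂ (LieOne hX) y) →
      ∀ u, ⁅y, ⁅y, u⁆⁆ = (lam * killingForm ℂ (LieOne hX) y u) • y := by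
  obtain ⟨e, h, f, x, hC, hss⟩ := hC
  have := hC.isSimple
  have ht := hC.isSl2Triple
  set κ := killingForm ℂ (LieOne hX) with hκ
  have hnd : κ.Nondegenerate := LieAlgebra.IsKilling.killingForm_nondegenerate ℂ (LieOne hX)
  have hsymm : ∀ u v, κ u v = κ v u := LieModule.traceForm_comm ℂ (LieOne hX) (LieOne hX)
  have hinv : ∀ u v w, κ ⁅u, v⁆ w = - κ v ⁅u, w⁆ := fun u v w =>
    LieModule.traceForm_apply_lie_apply' ℂ (LieOne hX) (LieOne hX) u v w
  obtain ⟨c, hc0, hc⟩ := exists_extremal hX hC hss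
  set E := LieOne.mk hX hC.he with hE
  have hcc : ∀ u v, c u * κ E v = c v * κ E u := by
    intro u v
    have h1 : κ ⁅E, ⁅E, u⁆⁆ v = κ u ⁅E, ⁅E, v⁆⁆ := by rw [hinv, hinv, neg_neg]
    rw [hc, hc, map_smul, map_smul, LinearMap.smul_apply, smul_eq_mul, smul_eq_mul,
      hsymm u E] at h1
    exact h1
  obtain ⟨v₀, hv₀⟩ : ∃ v, κ E v ≠ 0 := by
    by_contra hcon
    push Not at hcon
    exact ht.e_ne_zero (hnd.1 E hcon)
  set lam := c v₀ / κ E v₀ with hlam
  have hclam : ∀ u, c u = lam * κ E u := fun u => by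
    rw [hlam]
    field_simp
    rw [hcc u v₀]
  have hlam0 : lam ≠ 0 := by
    intro h0
    apply hc0
    ext u
    rw [hclam, h0, zero_mul]
    rfl
  have hc1 : IsPt hX c := isPt_extremal hX hC _ ht.e_ne_zero c hc hc0
  obtain ⟨σ₂, hσ₂, h2⟩ := hC.exists_eq hss c hc1
  refine ⟨lam, hlam0, fun y hy u => ?_⟩
  obtain ⟨σ₁, hσ₁, h1⟩ := hC.exists_eq hss _ hy
  set σ : LieOne hX ≃ₗ[ℂ] LieOne hX := σ₂⁻¹ * σ₁ with hσd
  have hσ : σ ∈ adjointGroup (LieOne hX) := mul_mem (inv_mem hσ₂) hσ₁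
  have h3 : ∀ u, κ y u = c (σ u) := by
    intro u
    have h5 : σ₂ (σ u) = σ₁ u := LinearEquiv.apply_symm_apply σ₂ _
    rw [h2, h5]
    exact h1 u
  have h4 : y = lam • σ⁻¹ E := by
    have h5 : ∀ u, κ (y - lam • σ⁻¹ E) u = 0 := by
      intro u
      rw [map_sub, LinearMap.sub_apply, map_smul, LinearMap.smul_apply, smul_eq_mul, h3,
        hclam, sub_eq_zero]
      congr 1
      have h6 := killingForm_apply_left σ⁻¹ (inv_mem hσ) E u
      rw [inv_inv] at h6
      exact h6.symm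
    exact sub_eq_zero.mp (hnd.1 _ h5)
  have h5 : ∀ u, ⁅σ⁻¹ E, ⁅σ⁻¹ E, u⁆⁆ = (lam * κ (σ⁻¹ E) u) • σ⁻¹ E := by
    intro u
    have hl := adjointGroup_lie σ⁻¹ (inv_mem hσ)
    have h6 : u = σ⁻¹ (σ u) := (LinearEquiv.symm_apply_apply σ u).symm
    have h7 := killingForm_apply_left σ⁻¹ (inv_mem hσ) E u
    rw [inv_inv] at h7
    have h8 : ⁅σ⁻¹ E, ⁅σ⁻¹ E, u⁆⁆ = σ⁻¹ ⁅E, ⁅E, σ u⁆⁆ := by
      rw [hl, hl, ← h6]
    rw [h8, hc, map_smul, hclam, ← h7]
  rw [h4]
  simp only [smul_lie, lie_smul, h5, map_smul, LinearMap.smul_apply, smul_smul, smul_eq_mul]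
  congr 1
  ring

/-- The cone over a contact Fano manifold is cut out by quadrics. -/
theorem isCutOutByQuadrics {hX : IsContactFano 𝒜 P} (hC : HasCore hX) :
    IsCutOutByQuadrics 𝒜 := by
  classical
  intro l hl
  have hdom := hX.domain
  have hft := hX.finiteType
  obtain ⟨lam, hlam0, hlam⟩ := exists_constant hC
  have hgen := hC.adjoin
  obtain ⟨e, h, f, x, hC', hss⟩ := id hC
  have := hC'.isSimple
  set κ := killingForm ℂ (LieOne hX) with hκ
  have hnd : κ.Nondegenerate := LieAlgebra.IsKilling.killingForm_nondegenerate ℂ (LieOne hX)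
  have hsymm : ∀ u v, κ u v = κ v u := LieModule.traceForm_comm ℂ (LieOne hX) (LieOne hX)
  have hinv : ∀ u v w, κ ⁅u, v⁆ w = - κ v ⁅u, w⁆ := fun u v w =>
    LieModule.traceForm_apply_lie_apply' ℂ (LieOne hX) (LieOne hX) u v w
  let θ : Module.Dual ℂ (LieOne hX) ≃ₗ[ℂ] LieOne hX := (LinearMap.BilinForm.toDual κ hnd).symm
  have hθ : ∀ (l : Module.Dual ℂ (LieOne hX)) (y : LieOne hX), κ (θ l) y = l y := fun l y =>
    LinearMap.BilinForm.apply_toDual_symm_apply l y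
  let l' : Module.Dual ℂ (LieOne hX) := l
  -- dual bases
  let b := Module.finBasis ℂ (LieOne hX)
  let b' := LinearMap.BilinForm.dualBasis κ hnd b
  have hsy : κ.IsSymm := ⟨hsymm⟩
  have hbb : ∀ w : LieOne hX, w = ∑ i, κ w (b' i) • b i := by
    intro w
    have h1 : ∀ i, b.repr w i = κ w (b' i) := by
      intro i
      have h2 := LinearMap.BilinForm.dualBasis_repr_apply hnd b' w i
      rw [LinearMap.BilinForm.dualBasis_dualBasis hnd hsy b] at h2
      exact h2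
    conv_lhs => rw [← b.sum_repr w]
    exact Finset.sum_congr rfl fun i _ => by rw [h1]
  -- the bracket in terms of the dual bases
  have hform : ∀ (m : Module.Dual ℂ (LieOne hX)) (u v : LieOne hX),
      κ ⁅θ m, ⁅θ m, u⁆⁆ v = ∑ i, m ⁅u, b' i⁆ * m ⁅b i, v⁆ := by
    intro m u v
    set y := θ m with hy
    have hm : ∀ w, m w = κ y w := fun w => (hθ m w).symm
    have h1 : ⁅y, u⁆ = ∑ i, m ⁅u, b' i⁆ • b i := by
      conv_lhs => rw [hbb ⁅y, u⁆]
      refine Finset.sum_congr rfl fun i _ => ?_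
      congr 1
      rw [hm, ← lie_skew, map_neg, LinearMap.neg_apply, hinv, neg_neg]
    rw [hinv, h1, map_sum, LinearMap.sum_apply, ← Finset.sum_neg_distrib]
    refine Finset.sum_congr rfl fun i _ => ?_
    rw [map_smul, LinearMap.smul_apply, smul_eq_mul, hm ⁅b i, v⁆, ← mul_neg]
    congr 1
    rw [← hinv, ← lie_skew, map_neg, LinearMap.neg_apply, hinv, neg_neg]
  -- the quadrics
  let qa : LieOne hX → Fin (finrank ℂ (LieOne hX) + 1) → LieOne hX := fun u =>
    Fin.cons u (fun i => ⁅u, b' i⁆)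
  let qb : LieOne hX → Fin (finrank ℂ (LieOne hX) + 1) → LieOne hX := fun v =>
    Fin.cons ((-lam) • v) (fun i => ⁅b i, v⁆)
  have hq : ∀ (m : Module.Dual ℂ (LieOne hX)) (u v : LieOne hX),
      ∑ i, m (qa u i) * m (qb v i) =
        κ ⁅θ m, ⁅θ m, u⁆⁆ v - lam * m u * m v := by
    intro m u v
    rw [hform, Fin.sum_univ_succ]
    simp only [qa, qb, Fin.cons_zero, Fin.cons_succ, map_smul, smul_eq_mul]
    ring
  have hrel : ∀ u v : LieOne hX,
      ∑ i, LieOne.incl hX (qa u i) * LieOne.incl hX (qb v i) = 0 := by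
    intro u v
    by_contra hne
    obtain ⟨p, hp⟩ := exists_point_ne_zero _ hne
    apply hp
    rw [map_sum]
    simp only [map_mul]
    by_cases hv : IsVertex 𝒜 p
    · refine Finset.sum_eq_zero fun i _ => ?_
      rw [hv 1 one_pos _ (LieOne.incl_mem hX _), zero_mul]
    · let m : Module.Dual ℂ (LieOne hX) := p.toLinearMap ∘ₗ LieOne.incl hX
      have h1 : κ (θ m) = m := LinearMap.ext (hθ m)
      have h2 := hlam (θ m) (by rw [h1]; exact ⟨p, hv, fun u => rfl⟩) u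
      have h3 := hq m u v
      rw [h2, map_smul, LinearMap.smul_apply, smul_eq_mul, h1, sub_self] at h3
      exact h3
  have hlq : ∀ u v : LieOne hX, κ ⁅θ l', ⁅θ l', u⁆⁆ v = lam * l' u * l' v := by
    intro u v
    have h1 := hl (finrank ℂ (LieOne hX) + 1) (qa u) (qb v) (hrel u v)
    have h2 := hq l' u v
    have h3 : ∑ i, l' (qa u i) * l' (qb v i) = 0 := h1
    rw [h3] at h2
    linear_combination -h2
  by_cases hl0 : l' = 0
  · obtain ⟨p, hp⟩ := IsContactFano.exists_rescale (𝒜 := 𝒜) x 0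
    refine ⟨p, fun u => ?_⟩
    have h1 : l u = 0 := LinearMap.congr_fun hl0 u
    rw [h1, hp 1 u u.2, pow_one, zero_mul]
  · have hy0 : θ l' ≠ 0 := fun h0 => hl0 (θ.injective (by rw [h0, map_zero]))
    have h1 : ∀ u, ⁅θ l', ⁅θ l', u⁆⁆ = (lam • l') u • θ l' := by
      intro u
      rw [← sub_eq_zero]
      refine hnd.1 _ fun v => ?_
      rw [map_sub, LinearMap.sub_apply, hlq, map_smul, LinearMap.smul_apply, hθ,
        LinearMap.smul_apply, smul_eq_mul, smul_eq_mul, sub_self]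
    have h2 := isPt_extremal hX hC' (θ l') hy0 (lam • l') h1 (smul_ne_zero hlam0 hl0)
    have h3 := isPt_smul hX hgen _ h2 lam⁻¹ (inv_ne_zero hlam0)
    rw [smul_smul, inv_mul_cancel₀ hlam0, one_smul] at h3
    obtain ⟨p, -, hp⟩ := h3
    exact ⟨p, fun u => (hp u).symm⟩

end Vale.Agent.P292.H442
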